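import Mathlib
import Crest.Prelude.Def_ReducedGroupCStar

-- ▼ part PVb/R129S/Ker
section

/-!
# R129S: operators on `ℓ²` given by their matrix entries, Schur test
-/

set_option autoImplicit false

noncomputable section

namespace Crest.Agent.R129S

open scoped InnerProductSpace ComplexConjugate ENNReal
open ContinuousLinearMap

/-- the Hilbert space `ℓ²(X)` -/
abbrev L2 (X : Type) : Type := lp (fun _ : X => ℂ) 2

variable {X Y Z : Type}

open Classical in
/-- basis vectors -/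
def dl (x : X) : L2 X := lp.single 2 x 1

open Classical in
theorem dl_apply (x w : X) : dl x w = if w = x then 1 else 0 := by
  rw [dl, lp.single_apply, Pi.single_apply]

theorem dl_self (x : X) : dl x x = 1 := by rw [dl_apply, if_pos rfl]

theorem dl_ne {x w : X} (h : w ≠ x) : dl x w = 0 := by rw [dl_apply, if_neg h]

theorem inner_dl (x : X) (η : L2 X) : ⟪dl x, η⟫_ℂ = η x := by
  classical
  rw [dl, lp.inner_single_left]; simp


theorem norm_dl (x : X) : ‖dl x‖ = 1 := by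
  classical
  rw [dl, lp.norm_single (by norm_num)]; simp

theorem hasSum_normSq (ξ : L2 X) : HasSum (fun x => ‖ξ x‖ ^ 2) (‖ξ‖ ^ 2) := by
  have h := lp.hasSum_norm (p := 2) (by norm_num) ξ
  simpa using h

theorem sum_normSq_le (ξ : L2 X) (s : Finset X) : ∑ x ∈ s, ‖ξ x‖ ^ 2 ≤ ‖ξ‖ ^ 2 :=
  sum_le_hasSum s (fun _ _ => sq_nonneg _) (hasSum_normSq ξ)


/-- a function with bounded partial sums of squares -/
def mkL2 (f : X → ℂ) {C : ℝ} (h : ∀ s : Finset X, ∑ x ∈ s, ‖f x‖ ^ 2 ≤ C) : L2 X :=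
  ⟨f, memℓp_gen' (C := C) (by simpa using h)⟩

@[simp] theorem mkL2_apply (f : X → ℂ) {C : ℝ} (h : ∀ s : Finset X, ∑ x ∈ s, ‖f x‖ ^ 2 ≤ C)
    (x : X) : mkL2 f h x = f x := rfl

theorem norm_le_of_sum (ξ : L2 X) {C : ℝ} (hC : 0 ≤ C)
    (h : ∀ s : Finset X, ∑ x ∈ s, ‖ξ x‖ ^ 2 ≤ C ^ 2) : ‖ξ‖ ≤ C :=
  (pow_le_pow_iff_left₀ (norm_nonneg _) hC two_ne_zero).1
    (hasSum_le_of_sum_le (hasSum_normSq ξ) h)

theorem ext_dl {E : Type} [NormedAddCommGroup E] [NormedSpace ℂ E] [CompleteSpace E]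
    {S T : L2 X →L[ℂ] E} (h : ∀ x, S (dl x) = T (dl x)) : S = T := by
  classical
  refine lp.ext_continuousLinearMap (by norm_num) fun z => ?_
  ext1
  exact h z


/-- matrix entries -/
def ent (T : L2 X →L[ℂ] L2 Y) (y : Y) (x : X) : ℂ := T (dl x) y

theorem ent_eq_inner (T : L2 X →L[ℂ] L2 Y) (y : Y) (x : X) : ent T y x = ⟪dl y, T (dl x)⟫_ℂ :=
  (inner_dl _ _).symm













section Schur

variable {K : Y → X → ℂ} {a b : ℝ}







end Schur

open Classical in
/-- the operator with a given kernel (zero if there is none) -/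
def kop (K : Y → X → ℂ) : L2 X →L[ℂ] L2 Y :=
  if h : ∃ T : L2 X →L[ℂ] L2 Y, ∀ y x, ent T y x = K y x then h.choose else 0

/-- `K` is the matrix of a bounded operator -/
def Bd (K : Y → X → ℂ) : Prop := ∃ T : L2 X →L[ℂ] L2 Y, ∀ y x, ent T y x = K y x





end Crest.Agent.R129S
end
end

-- ▼ part PVb/R129S/Gap
section

/-!
# R129S: spectral gaps as an inequality, the upper spectral projection
-/

set_option autoImplicit false
set_option linter.unusedSectionVars false

noncomputable section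

namespace Crest.Agent.R129S

open scoped InnerProductSpace ComplexConjugate
open ContinuousLinearMap

variable {E F : Type} [NormedAddCommGroup E] [InnerProductSpace ℂ E]
  [NormedAddCommGroup F] [InnerProductSpace ℂ F]

/-- the spectrum of `S` misses `(m - r, m + r)` -/
def Gap (S : E →L[ℂ] E) (m r : ℝ) : Prop := ∀ ξ, r * ‖ξ‖ ≤ ‖S ξ - (m : ℂ) • ξ‖

theorem Gap.mono {S : E →L[ℂ] E} {m r r' : ℝ} (h : Gap S m r) (hr : r' ≤ r) : Gap S m r' :=
  fun ξ => (mul_le_mul_of_nonneg_right hr (norm_nonneg _)).trans (h ξ)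

theorem Gap.perturb {S S' : E →L[ℂ] E} {m r δ : ℝ} (h : Gap S m r) (hδ : ‖S' - S‖ ≤ δ) :
    Gap S' m (r - δ) := by
  intro ξ
  have h1 := h ξ
  have h2 : ‖(S' - S) ξ‖ ≤ δ * ‖ξ‖ := (S' - S).le_of_opNorm_le hδ ξ
  have h3 : S ξ - (m : ℂ) • ξ = (S' ξ - (m : ℂ) • ξ) - (S' - S) ξ := by
    simp only [sub_apply]; abel
  have h4 := norm_sub_le (S' ξ - (m : ℂ) • ξ) ((S' - S) ξ)
  rw [← h3] at h4
  linarith

theorem Gap.add_const {S : E →L[ℂ] E} {m r : ℝ} (h : Gap S m r) (c : ℝ) :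
    Gap (S + (c : ℂ) • 1) (m + c) r := by
  intro ξ
  have := h ξ
  convert this using 2
  simp only [add_apply, smul_apply,
    one_apply_eq_self, Complex.ofReal_add, add_smul]
  abel

theorem Gap.smul {S : E →L[ℂ] E} {m r : ℝ} (h : Gap S m r) {c : ℝ} (hc : 0 ≤ c) :
    Gap ((c : ℂ) • S) (c * m) (c * r) := by
  intro ξ
  have h1 := mul_le_mul_of_nonneg_left (h ξ) hc
  have e : ((c : ℂ) • S) ξ - ((c * m : ℝ) : ℂ) • ξ = (c : ℂ) • (S ξ - (m : ℂ) • ξ) := by
    simp only [smul_apply, Complex.ofReal_mul, smul_sub, mul_smul]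
  rw [e, norm_smul, Complex.norm_real, Real.norm_of_nonneg hc, mul_assoc]
  exact h1


variable [CompleteSpace E] [CompleteSpace F]

theorem nonneg_of_re {A : E →L[ℂ] E} (hA : IsSelfAdjoint A) (h : ∀ ξ, 0 ≤ (⟪ξ, A ξ⟫_ℂ).re) :
    0 ≤ A := by
  rw [nonneg_iff_isPositive, isPositive_def']
  refine ⟨hA, fun ξ => ?_⟩
  rw [reApplyInnerSelf_apply, inner_re_symm]
  exact h ξ

theorem re_nonneg {A : E →L[ℂ] E} (h : 0 ≤ A) (ξ : E) : 0 ≤ (⟪ξ, A ξ⟫_ℂ).re :=
  ((nonneg_iff_isPositive A).1 h).re_inner_nonneg_right ξ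

theorem re_inner_self (ξ : E) : (⟪ξ, ξ⟫_ℂ).re = ‖ξ‖ ^ 2 := inner_self_eq_norm_sq (𝕜 := ℂ) ξ

theorem re_inner_adjoint (A : E →L[ℂ] F) (ξ : E) :
    (⟪ξ, (adjoint A ∘L A) ξ⟫_ℂ).re = ‖A ξ‖ ^ 2 := by
  rw [ContinuousLinearMap.comp_apply, adjoint_inner_right]
  exact inner_self_eq_norm_sq (𝕜 := ℂ) _

theorem Gap.spectrum {S : E →L[ℂ] E} {m r : ℝ} (h : Gap S m r) (hS : IsSelfAdjoint S)
    (hr : 0 ≤ r) {x : ℝ} (hx : x ∈ spectrum ℝ S) : r ≤ |x - m| := by
  have hsa : IsSelfAdjoint (S - algebraMap ℝ _ m) :=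
    hS.sub (IsSelfAdjoint.algebraMap _ (IsSelfAdjoint.all m))
  have e : cfc (fun x : ℝ => (x - m) * (x - m) - r ^ 2) S
      = (S - algebraMap ℝ _ m) * (S - algebraMap ℝ _ m) - algebraMap ℝ _ (r ^ 2) := by
    rw [cfc_sub _ _ S, cfc_mul _ _ S, cfc_sub _ _ S, cfc_const _ S, cfc_const _ S, cfc_id' ℝ S]
  have h0 : 0 ≤ cfc (fun x : ℝ => (x - m) * (x - m) - r ^ 2) S := by
    refine nonneg_of_re (cfc_predicate _ _) fun ξ => ?_
    rw [e]
    have h1 : (S - algebraMap ℝ (E →L[ℂ] E) m) ξ = S ξ - (m : ℂ) • ξ := by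
      rw [sub_apply, Algebra.algebraMap_eq_smul_one]
      simp
    have h2 : (⟪ξ, ((S - algebraMap ℝ (E →L[ℂ] E) m) * (S - algebraMap ℝ (E →L[ℂ] E) m)) ξ⟫_ℂ).re
        = ‖S ξ - (m : ℂ) • ξ‖ ^ 2 := by
      rw [← h1, ← re_inner_adjoint, ← star_eq_adjoint, hsa.star_eq]; rfl
    have h3 : (⟪ξ, (algebraMap ℝ (E →L[ℂ] E) (r ^ 2)) ξ⟫_ℂ).re = r ^ 2 * ‖ξ‖ ^ 2 := by
      rw [Algebra.algebraMap_eq_smul_one, smul_apply,
        one_apply_eq_self, ← Complex.coe_smul, inner_smul_right, Complex.re_ofReal_mul,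
        re_inner_self]
    rw [sub_apply, inner_sub_right, Complex.sub_re, h2, h3, ← mul_pow]
    have := pow_le_pow_left₀ (by positivity) (h ξ) 2
    linarith
  have := (cfc_nonneg_iff _ S).1 h0 x hx
  refine (abs_le_of_sq_le_sq' ?_ (abs_nonneg _)).2
  rw [sq_abs]; nlinarith

theorem gap_of_spectrum {S : E →L[ℂ] E} {m r : ℝ} (hS : IsSelfAdjoint S)
    (hr : 0 ≤ r) (h : ∀ x ∈ spectrum ℝ S, r ≤ |x - m|) : Gap S m r := by
  have hsa : IsSelfAdjoint (S - algebraMap ℝ _ m) :=
    hS.sub (IsSelfAdjoint.algebraMap _ (IsSelfAdjoint.all m))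
  have e : cfc (fun x : ℝ => (x - m) * (x - m) - r ^ 2) S
      = (S - algebraMap ℝ _ m) * (S - algebraMap ℝ _ m) - algebraMap ℝ _ (r ^ 2) := by
    rw [cfc_sub _ _ S, cfc_mul _ _ S, cfc_sub _ _ S, cfc_const _ S, cfc_const _ S, cfc_id' ℝ S]
  have h0 : 0 ≤ cfc (fun x : ℝ => (x - m) * (x - m) - r ^ 2) S := by
    refine cfc_nonneg fun x hx => ?_
    have := pow_le_pow_left₀ hr (h x hx) 2
    rw [sq_abs] at this
    nlinarith
  intro ξ
  have h4 := re_nonneg h0 ξ
  rw [e] at h4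
  have h1 : (S - algebraMap ℝ (E →L[ℂ] E) m) ξ = S ξ - (m : ℂ) • ξ := by
    rw [sub_apply, Algebra.algebraMap_eq_smul_one]
    simp
  have h2 : (⟪ξ, ((S - algebraMap ℝ (E →L[ℂ] E) m) * (S - algebraMap ℝ (E →L[ℂ] E) m)) ξ⟫_ℂ).re
      = ‖S ξ - (m : ℂ) • ξ‖ ^ 2 := by
    rw [← h1, ← re_inner_adjoint, ← star_eq_adjoint, hsa.star_eq]; rfl
  have h3 : (⟪ξ, (algebraMap ℝ (E →L[ℂ] E) (r ^ 2)) ξ⟫_ℂ).re = r ^ 2 * ‖ξ‖ ^ 2 := by
    rw [Algebra.algebraMap_eq_smul_one, smul_apply,
      one_apply_eq_self, ← Complex.coe_smul, inner_smul_right, Complex.re_ofReal_mul,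
      re_inner_self]
  rw [sub_apply, inner_sub_right, Complex.sub_re, h2, h3, ← mul_pow] at h4
  exact (pow_le_pow_iff_left₀ (by positivity) (norm_nonneg _) two_ne_zero).1 (by linarith)

/-- the step function -/
def stp (m : ℝ) (x : ℝ) : ℝ := if m ≤ x then 1 else 0

/-- the spectral projection of `[m, ∞)` -/
def up (S : E →L[ℂ] E) (m : ℝ) : E →L[ℂ] E := cfc (stp m) S

section up

variable {S : E →L[ℂ] E} {m r : ℝ}

theorem Gap.continuousOn (h : Gap S m r) (hS : IsSelfAdjoint S) (hr : 0 < r) :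
    ContinuousOn (stp m) (_root_.spectrum ℝ S) := by
  have hc : Continuous fun x : ℝ => max 0 (min 1 ((x - m) / r)) := by fun_prop
  refine hc.continuousOn.congr fun x hx => ?_
  have h1 := h.spectrum hS hr.le hx
  unfold stp
  dsimp only
  split_ifs with h2
  · rw [abs_of_nonneg (by linarith)] at h1
    rw [min_eq_left ((one_le_div hr).2 h1), max_eq_right zero_le_one]
  · have : (x - m) / r ≤ 0 := div_nonpos_of_nonpos_of_nonneg (by linarith) hr.le
    rw [max_eq_left ((min_le_right _ _).trans this)]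

theorem up_selfAdjoint (S : E →L[ℂ] E) (m : ℝ) : IsSelfAdjoint (up S m) := cfc_predicate _ _


theorem Gap.up_mul (h : Gap S m r) (hS : IsSelfAdjoint S) (hr : 0 < r) :
    up S m * up S m = up S m := by
  have hc := h.continuousOn hS hr
  unfold up
  rw [← cfc_mul _ _ S]
  refine cfc_congr fun x _ => ?_
  unfold stp; split_ifs <;> simp

theorem up_mem {A : StarSubalgebra ℂ (E →L[ℂ] E)} (hA : IsClosed (A : Set (E →L[ℂ] E)))
    (hS : S ∈ A) (m : ℝ) : up S m ∈ A :=
  cfc_mem (𝕜' := ℂ) (hs := hA) _ hS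



end up

/-- approximate projections -/
theorem approx_proj {S : E →L[ℂ] E} (hS : IsSelfAdjoint S) {δ : ℝ} (hδ : δ ≤ 1 / 8)
    (h : ‖S * S - S‖ ≤ δ) : Gap S (1 / 2) (1 / 4) ∧ ‖up S (1 / 2) - S‖ ≤ 2 * δ := by
  have hδ0 : 0 ≤ δ := (norm_nonneg _).trans h
  have h1 : ∀ x ∈ spectrum ℝ S, |x * x - x| ≤ δ := by
    intro x hx
    have e : cfc (fun x : ℝ => x * x - x) S = S * S - S := by
      rw [cfc_sub _ _ S, cfc_mul _ _ S, cfc_id' ℝ S]
    have := norm_apply_le_norm_cfc (fun x : ℝ => x * x - x) S hx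
    rw [e] at this
    exact this.trans h
  have hg : Gap S (1 / 2) (1 / 4) := by
    refine gap_of_spectrum hS (by norm_num) fun x hx => ?_
    have h2 := (abs_le.1 (h1 x hx)).1
    refine (abs_le_of_sq_le_sq' ?_ (abs_nonneg _)).2
    rw [sq_abs]; nlinarith
  refine ⟨hg, ?_⟩
  have hc := hg.continuousOn hS (by norm_num)
  have e : up S (1 / 2) - S = cfc (fun x : ℝ => stp (1 / 2) x - x) S := by
    rw [cfc_sub _ _ S, cfc_id' ℝ S]; rfl
  rw [e]
  refine norm_cfc_le (by positivity) fun x hx => ?_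
  have h2 := abs_le.1 (h1 x hx)
  rw [Real.norm_eq_abs, abs_le]
  unfold stp
  split_ifs with h3
  · constructor <;> nlinarith [h2.1, h2.2]
  · constructor <;> nlinarith [h2.1, h2.2]

end Crest.Agent.R129S
end
end

-- ▼ part PVb/R129S/CStar

/-!
# R129S: the reduced group C*-algebra as a closed star subalgebra; the trace of a gap projection
-/

set_option autoImplicit false
set_option linter.unusedSectionVars false

noncomputable section

namespace Crest.Agent.R129S

open scoped InnerProductSpace ComplexConjugate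
open ContinuousLinearMap Crest.OperatorAlgebra

section Pull

variable {X Y : Type}

theorem sum_comp_le {f : Y → X} (hf : Function.Injective f) (η : L2 X) (s : Finset Y) :
    ∑ y ∈ s, ‖η (f y)‖ ^ 2 ≤ ‖η‖ ^ 2 := by
  have := sum_normSq_le η (s.map ⟨f, hf⟩)
  rwa [Finset.sum_map] at this

/-- pull-back along an injection -/
def pull (f : Y → X) (hf : Function.Injective f) : L2 X →L[ℂ] L2 Y :=
  LinearMap.mkContinuous
    { toFun := fun η => mkL2 (fun y => η (f y)) (sum_comp_le hf η)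
      map_add' := fun _ _ => rfl
      map_smul' := fun _ _ => rfl } 1
    (fun η => by
      rw [one_mul]
      exact norm_le_of_sum _ (norm_nonneg _) (sum_comp_le hf η))

theorem pull_apply (f : Y → X) (hf : Function.Injective f) (η : L2 X) (y : Y) :
    pull f hf η y = η (f y) := rfl


theorem adjoint_pull_dl (f : Y → X) (hf : Function.Injective f) (y : Y) :
    adjoint (pull f hf) (dl y) = dl (f y) := by
  refine ext_inner_right ℂ fun η => ?_
  rw [adjoint_inner_left, inner_dl, inner_dl, pull_apply]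

theorem pull_dl (f : Y → X) (hf : Function.Injective f) (y : Y) : pull f hf (dl (f y)) = dl y := by
  refine lp.ext (funext fun w => ?_)
  rw [pull_apply]
  by_cases h : w = y
  · rw [h, dl_self, dl_self]
  · rw [dl_ne h, dl_ne fun h' => h (hf h')]




end Pull

variable {G : Type} [Group G]

/-- left translation -/
def lam (g : G) : L2 G →L[ℂ] L2 G := pull (fun x => g⁻¹ * x) (mul_right_injective _)

/-- right translation -/
def rho (g : G) : L2 G →L[ℂ] L2 G := pull (fun x => x * g) (mul_left_injective _)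

theorem rho_apply (g : G) (ξ : L2 G) (x : G) : rho g ξ x = ξ (x * g) := rfl

theorem lam_dl (g x : G) : lam g (dl x) = dl (g * x) := by
  have := pull_dl (fun x => g⁻¹ * x) (mul_right_injective _) (g * x)
  simpa [lam] using this

theorem rho_dl (g x : G) : rho g (dl x) = dl (x * g⁻¹) := by
  have := pull_dl (fun x => x * g) (mul_left_injective _) (x * g⁻¹)
  simpa [rho] using this

theorem lam_mul (g h : G) : lam (g * h) = lam g * lam h :=
  ext_dl fun x => by rw [mul_apply_eq_comp, lam_dl, lam_dl, lam_dl, mul_assoc]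

theorem lam_one : lam (1 : G) = 1 := ext_dl fun x => by rw [lam_dl, one_mul]; rfl

theorem star_lam (g : G) : star (lam g) = lam g⁻¹ :=
  ext_dl fun x => by rw [star_eq_adjoint, lam, adjoint_pull_dl, lam_dl]


theorem commute_lam_rho (g h : G) : Commute (lam g) (rho h) :=
  ext_dl fun x => by
    rw [mul_apply_eq_comp, mul_apply_eq_comp, lam_dl, rho_dl, rho_dl, lam_dl, mul_assoc]

theorem mem_leftTranslations {T : L2 G →L[ℂ] L2 G} : T ∈ leftTranslations G ↔ ∃ g, T = lam g := by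
  constructor
  · rintro ⟨g, hg⟩
    exact ⟨g, ContinuousLinearMap.ext fun f => lp.ext (funext fun x => hg f x)⟩
  · rintro ⟨g, rfl⟩
    exact ⟨g, fun _ _ => rfl⟩

variable (G) in
/-- the group algebra inside the bounded operators -/
def grpAlg : StarSubalgebra ℂ (L2 G →L[ℂ] L2 G) where
  carrier := Submodule.span ℂ (leftTranslations G)
  mul_mem' := by
    intro a b ha hb
    have h : Submodule.span ℂ (leftTranslations G) * Submodule.span ℂ (leftTranslations G)
        ≤ Submodule.span ℂ (leftTranslations G) := by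
      rw [Submodule.span_mul_span]
      refine Submodule.span_mono ?_
      rintro _ ⟨x, hx, y, hy, rfl⟩
      obtain ⟨g, rfl⟩ := mem_leftTranslations.1 hx
      obtain ⟨h, rfl⟩ := mem_leftTranslations.1 hy
      exact mem_leftTranslations.2 ⟨g * h, (lam_mul g h).symm⟩
    exact h (Submodule.mul_mem_mul ha hb)
  add_mem' := fun ha hb => Submodule.add_mem _ ha hb
  algebraMap_mem' := fun c => by
    rw [Algebra.algebraMap_eq_smul_one]
    exact Submodule.smul_mem _ _
      (Submodule.subset_span (mem_leftTranslations.2 ⟨1, lam_one.symm⟩))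
  star_mem' := by
    intro a ha
    induction ha using Submodule.span_induction with
    | mem x hx =>
      obtain ⟨g, rfl⟩ := mem_leftTranslations.1 hx
      exact Submodule.subset_span (mem_leftTranslations.2 ⟨g⁻¹, star_lam g⟩)
    | zero => rw [star_zero]; exact Submodule.zero_mem _
    | add x y _ _ hx hy => rw [star_add]; exact Submodule.add_mem _ hx hy
    | smul c x _ hx => rw [star_smul]; exact Submodule.smul_mem _ _ hx

theorem lam_mem_grpAlg (g : G) : lam g ∈ grpAlg G :=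
  Submodule.subset_span (mem_leftTranslations.2 ⟨g, rfl⟩)

variable (G) in
/-- the reduced group C*-algebra -/
def redAlg : StarSubalgebra ℂ (L2 G →L[ℂ] L2 G) := (grpAlg G).topologicalClosure


theorem isClosed_redAlg : IsClosed (redAlg G : Set (L2 G →L[ℂ] L2 G)) :=
  StarSubalgebra.isClosed_topologicalClosure _

theorem lam_mem (g : G) : lam g ∈ redAlg G :=
  StarSubalgebra.le_topologicalClosure _ (lam_mem_grpAlg g)

theorem commute_rho {T : L2 G →L[ℂ] L2 G} (hT : T ∈ redAlg G) (h : G) : Commute T (rho h) := by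
  have hc : IsClosed {T : L2 G →L[ℂ] L2 G | T * rho h = rho h * T} :=
    isClosed_eq (by fun_prop) (by fun_prop)
  refine closure_minimal (fun a ha => ?_) hc hT
  induction ha using Submodule.span_induction with
  | mem x hx =>
    obtain ⟨g, rfl⟩ := mem_leftTranslations.1 hx
    exact commute_lam_rho g h
  | zero => exact Commute.zero_left _
  | add x y _ _ hx hy => exact Commute.add_left hx hy
  | smul c x _ hx => exact Commute.smul_left hx c


theorem trace_eq (T : L2 G →L[ℂ] L2 G) : canonicalTrace G T = ent T 1 1 :=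
  (ent_eq_inner T 1 1).symm

theorem trace_proj {e : L2 G →L[ℂ] L2 G} (h1 : e * e = e) (h2 : star e = e) :
    (canonicalTrace G e).re = ‖e (dl 1)‖ ^ 2 := by
  rw [← re_inner_adjoint, ← star_eq_adjoint, h2]
  change _ = (⟪dl 1, (e * e) (dl 1)⟫_ℂ).re
  rw [h1]; rfl

theorem eq_zero_of_dl_one {T : L2 G →L[ℂ] L2 G} (hT : T ∈ redAlg G) (h : T (dl 1) = 0) : T = 0 :=
  ext_dl fun x => by
    have h1 : dl x = rho x⁻¹ (dl 1) := by rw [rho_dl, inv_inv, one_mul]
    rw [h1, ← mul_apply_eq_comp, (commute_rho hT x⁻¹).eq, mul_apply_eq_comp, h, map_zero]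
    rfl


end Crest.Agent.R129S
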