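import Crest.Agent.PVb.R129.SDp
import Crest.Agent.PVb.R129.SDefs
import Crest.Agent.PVb.R129S.CStar

-- ▼ part PVb/R129/SSplit
section

/-!
# The splitting `D* D = 4 n² + B* B + O(n^{3/2})` (task R129/SSplit).  Statements frozen.

Write `h = (gen s)⁻¹ * g`, `Dn s g := Γ.Down (s, true) g`, `Dpv g := ∃ b, Γ.Deep 5 g b`
(note `Γ.mkG (sg (s, true)) = Γ.gen s`, `Γ.mkG (sg (s,false)) = (Γ.gen s)⁻¹`; `Deep 5 → Deep 3` as
`1 ≤ L`; `SEdge b (s,false) b' ↔ SEdge b' (s,true) b`).  Every entry `(s,g)` is of exactly one type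
* `B`: `IsB s g`;
* `R1`: `Dn s g ∧ ¬ Dpv g`.  At most one `s` for each `g` (`two_down`).
* `R3`: `Dn s g ∧ Dpv g ∧ ¬ IsB s g`.  At most one `s` for each `g` (two down letters make both
  entries `B` by `two_down`).  For fixed `h` the `s` with `Dn s (gen s * h) ∧ Dpv (gen s * h)` are
  determined by their port `s.1`: `deep_down_edge`, `deep_down_semi` give `SEdge b (s,true) b'`,
  `Deep 3 h b'`; `b'` is unique (`deep_unique`), `b` is determined by `nb_inj`, `s = letter b s.1`.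
* `R2`: `¬ Dn s g ∧ ¬ IsB s g`.  Then `Down (s,false) h` (`len_step`), and for fixed `h` there is at
  most one such `s` (`two_down` at `h`); a row `(g,z)` has at most `4n` entries.
So `‖R3‖ ≤ √n`, `‖R2‖ ≤ 2√n`, `‖B‖ ≤ n`, `‖R1‖ ≤ 2n` (`schur_Dp`), `R1* B = 0 = B* R1` and `R1* R1` is
diagonal with entries `#{s | R1 s (gen s * h)} ∈ [4n² - 2n - 1, 4n²]` (`mat_adj_Dp_comp`, `schur₁`).
With `D = (R1 + B) + R'`, `‖R'‖ ≤ 3√n`: error `≤ 2·3n·3√n + 9n + 2n + 1 ≤ 30 n √n`.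
-/

set_option autoImplicit false
open scoped BigOperators

namespace Crest.Agent.R129
namespace BG
variable {F A : Type} [Fintype F] [DecidableEq F] [Group A] {Γ : BG F A}

omit [Fintype F] in
theorem ssp_deep3 (_h : Γ.SCHyp) {g : Γ.Grp} {b : Γ.V} (hb : Γ.Deep 5 g b) : Γ.Deep 3 g b := by
  obtain ⟨w, x, h1, h2, h3, h4, h5⟩ := hb
  exact ⟨w, x, h1, h2, h3, h4, by linarith [_h.one_le b]⟩

omit [Fintype F] [DecidableEq F] [Group A] in
theorem ssp_sedge_true {b b' : Γ.V} {s : Let F} :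
    Γ.SEdge b (s, true) b' ↔ Γ.nb b s.1 = some b' ∧ Γ.letter b s.1 = s := by
  simp [SEdge]

omit [Fintype F] [DecidableEq F] [Group A] in
theorem ssp_sedge_false {b b' : Γ.V} {s : Let F} :
    Γ.SEdge b (s, false) b' ↔ Γ.SEdge b' (s, true) b := by
  simp [SEdge]

omit [Fintype F] [DecidableEq F] in
theorem ssp_sg_true (s : Let F) : Γ.mkG (sg (s, true)) = Γ.gen s := rfl

omit [Fintype F] [DecidableEq F] in
theorem ssp_sg_false (s : Let F) : Γ.mkG (sg (s, false)) = (Γ.gen s)⁻¹ := by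
  simp [sg, gen]

theorem ssp_card_col (h : Γ.SCHyp) (k : Γ.Grp) (S : Finset (Let F))
    (hS : ∀ s ∈ S, ∃ b b', Γ.SEdge b (s, true) b' ∧ Γ.Deep 3 k b') : S.card ≤ Fintype.card F := by
  rw [← Finset.card_univ]
  refine Finset.card_le_card_of_injOn (fun s => s.1) (fun _ _ => Finset.mem_univ _) ?_
  intro s hs s' hs' he
  obtain ⟨b, c, h1, h2⟩ := hS s hs
  obtain ⟨b', c', h1', h2'⟩ := hS s' hs'
  obtain rfl := deep_unique h h2 h2'
  rw [ssp_sedge_true] at h1 h1'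
  simp only at he
  rw [← he] at h1'
  obtain rfl := Γ.nb_inj _ _ _ _ h1.1 h1'.1
  exact h1.2.symm.trans h1'.2

/-- down entries at shallow vertices -/
def SR1 (Γ : BG F A) (s : Let F) (g : Γ.Grp) : Prop :=
  Γ.Down (s, true) g ∧ ¬ ∃ b, Γ.Deep 5 g b

/-- up entries that are not deep -/
def SR2 (Γ : BG F A) (s : Let F) (g : Γ.Grp) : Prop := ¬ Γ.Down (s, true) g ∧ ¬ Γ.IsB s g

/-- down entries at deep vertices that are not deep edges -/
def SR3 (Γ : BG F A) (s : Let F) (g : Γ.Grp) : Prop :=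
  Γ.Down (s, true) g ∧ (∃ b, Γ.Deep 5 g b) ∧ ¬ Γ.IsB s g

omit [Fintype F] in
theorem ssp_two (h : Γ.SCHyp) {g : Γ.Grp} {s s' : Let F} (h1 : Γ.Down (s, true) g)
    (h2 : Γ.Down (s', true) g) (hB : ¬ Γ.IsB s g) : s = s' := by
  by_contra hne
  obtain ⟨b, b', a1, a2, a3⟩ := two_down h h1 h2 (fun e => hne (congrArg Prod.fst e))
  exact hB ⟨b, b', a2, a1, a3⟩

omit [Fintype F] in
theorem SR1.not_isB {g : Γ.Grp} {s s' : Let F} (h1 : Γ.SR1 s g) : ¬ Γ.IsB s' g :=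
  fun ⟨b, _, _, h3, _⟩ => h1.2 ⟨b, h3⟩

omit [Fintype F] in
theorem ssp_up {k : Γ.Grp} {s : Let F} (h1 : ¬ Γ.Down (s, true) (Γ.gen s * k)) :
    Γ.Down (s, false) k := by
  have h2 := len_step (Γ := Γ) (s, true) (Γ.gen s * k)
  unfold Down at h1 ⊢
  rw [ssp_sg_true, inv_mul_cancel_left] at h1 h2
  rw [ssp_sg_false, inv_inv]
  omega

open Classical in
theorem ssp_R2_col (h : Γ.SCHyp) (k : Γ.Grp) :
    (Finset.univ.filter fun s : Let F => Γ.SR2 s (Γ.gen s * k)).card ≤ 1 := by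
  refine Finset.card_le_one.2 fun s hs s' hs' => ?_
  have h1 := (Finset.mem_filter.1 hs).2
  have h2 := (Finset.mem_filter.1 hs').2
  by_contra hne
  obtain ⟨b, b', a1, a2, a3⟩ := two_down h (ssp_up h1.1) (ssp_up h2.1)
    (fun e => hne (congrArg Prod.fst e))
  rw [ssp_sg_false, inv_inv] at a3
  exact h1.2 ⟨b', b, ssp_sedge_false.1 a2, a3, by rwa [inv_mul_cancel_left]⟩

open Classical in
theorem ssp_R3_col (h : Γ.SCHyp) (k : Γ.Grp) :
    (Finset.univ.filter fun s : Let F => Γ.SR3 s (Γ.gen s * k)).card ≤ Fintype.card F := by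
  refine ssp_card_col h k _ fun s hs => ?_
  obtain ⟨h1, ⟨b, h2⟩, -⟩ := (Finset.mem_filter.1 hs).2
  obtain ⟨b', h3⟩ := deep_down_edge h (ssp_deep3 h h2) h1
  have h4 := deep_down_semi h h2 h1 h3
  rw [ssp_sg_true, inv_mul_cancel_left] at h4
  exact ⟨b, b', h3, h4⟩

omit [DecidableEq F] in
theorem ssp_card_Let : Fintype.card (Let F) = 4 * Fintype.card F ^ 2 := by
  simp only [Let, Fintype.card_prod, ZMod.card]; ring

theorem ssp_card_block (z : F) :
    (Finset.univ.filter fun s : Let F => s.2.1 = z).card ≤ 4 * Fintype.card F := by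
  have : 4 * Fintype.card F = (Finset.univ : Finset (F × ZMod 4)).card := by
    rw [Finset.card_univ, Fintype.card_prod, ZMod.card]; ring
  rw [this]
  refine Finset.card_le_card_of_injOn (fun s => (s.1, s.2.2)) (fun _ _ => Finset.mem_univ _) ?_
  rintro ⟨a, b, c⟩ hs ⟨a', b', c'⟩ hs' he
  simp only [Finset.coe_filter, Finset.mem_univ, true_and, Set.mem_ofPred_eq] at hs hs'
  simp only [Prod.mk.injEq] at he
  rw [he.1, he.2, hs, hs']

theorem ssp_abstract {E E' : Type} [NormedAddCommGroup E] [InnerProductSpace ℂ E] [CompleteSpace E]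
    [NormedAddCommGroup E'] [InnerProductSpace ℂ E'] [CompleteSpace E']
    (R1 B R : E →L[ℂ] E') (M : E →L[ℂ] E) (a r e : ℝ) (hX : ‖R1 + B‖ ≤ a) (hR : ‖R‖ ≤ r)
    (h1 : ContinuousLinearMap.adjoint R1 ∘L B = 0) (h2 : ContinuousLinearMap.adjoint B ∘L R1 = 0)
    (h3 : ‖ContinuousLinearMap.adjoint R1 ∘L R1 - M‖ ≤ e) :
    ‖ContinuousLinearMap.adjoint (R1 + B + R) ∘L (R1 + B + R) - M -
      ContinuousLinearMap.adjoint B ∘L B‖ ≤ e + a * r + r * a + r * r := by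
  have e1 : ContinuousLinearMap.adjoint (R1 + B + R) ∘L (R1 + B + R) - M -
      ContinuousLinearMap.adjoint B ∘L B =
      (ContinuousLinearMap.adjoint R1 ∘L R1 - M) + ContinuousLinearMap.adjoint (R1 + B) ∘L R +
        ContinuousLinearMap.adjoint R ∘L (R1 + B) + ContinuousLinearMap.adjoint R ∘L R := by
    simp only [map_add, ContinuousLinearMap.add_comp, ContinuousLinearMap.comp_add, h1, h2]
    abel
  have hb : ∀ (S T : E →L[ℂ] E') (x y : ℝ), ‖S‖ ≤ x → ‖T‖ ≤ y →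
      ‖ContinuousLinearMap.adjoint S ∘L T‖ ≤ x * y := by
    intro S T x y hS hT
    refine (ContinuousLinearMap.opNorm_comp_le _ _).trans ?_
    rw [LinearIsometryEquiv.norm_map]
    exact mul_le_mul hS hT (norm_nonneg _) ((norm_nonneg _).trans hS)
  rw [e1]
  exact norm_add_le_of_le (norm_add_le_of_le (norm_add_le_of_le h3 (hb _ _ _ _ hX hR))
    (hb _ _ _ _ hR hX)) (hb _ _ _ _ hR hR)

open Classical in
theorem card_IsB_row (h : Γ.SCHyp) (g : Γ.Grp) :
    (Finset.univ.filter fun s : Let F => Γ.IsB s g).card ≤ Fintype.card F := by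
  rw [← Finset.card_univ]
  refine Finset.card_le_card_of_injOn (fun s => s.1) (fun _ _ => Finset.mem_univ _) ?_
  intro s hs s' hs' he
  obtain ⟨b, c, h1, h2, -⟩ := (Finset.mem_filter.1 hs).2
  obtain ⟨b', c', h1', h2', -⟩ := (Finset.mem_filter.1 hs').2
  obtain rfl := deep_unique h (ssp_deep3 h h2) (ssp_deep3 h h2')
  rw [ssp_sedge_true] at h1 h1'
  simp only at he
  rw [← h1.2, ← h1'.2, he]

open Classical in
theorem card_IsB_col (h : Γ.SCHyp) (k : Γ.Grp) :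
    (Finset.univ.filter fun s : Let F => Γ.IsB s (Γ.gen s * k)).card ≤ Fintype.card F := by
  refine ssp_card_col h k _ fun s hs => ?_
  obtain ⟨b, c, h1, -, h3⟩ := (Finset.mem_filter.1 hs).2
  rw [inv_mul_cancel_left] at h3
  exact ⟨b, c, h1, ssp_deep3 h h3⟩

theorem split [Nonempty F] (h : Γ.SCHyp) :
    ‖Γ.Top - ((4 * (Fintype.card F : ℝ) ^ 2 : ℝ) : ℂ) • (1 : L2 Γ.Grp →L[ℂ] L2 Γ.Grp)
        - adj (Γ.Dp Γ.IsB) ∘L Γ.Dp Γ.IsB‖
      ≤ 30 * (Fintype.card F * Real.sqrt (Fintype.card F)) := by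
  classical
  set n := Fintype.card F with hn
  have hn1 : (1 : ℝ) ≤ n := by exact_mod_cast (Fintype.card_pos : 0 < Fintype.card F)
  have hs1 : 1 ≤ Real.sqrt n := Real.one_le_sqrt.2 hn1
  have hss : Real.sqrt n * Real.sqrt n = n := Real.mul_self_sqrt (by linarith)
  have hD : Γ.Dop = Γ.Dp Γ.SR1 + Γ.Dp Γ.IsB + (Γ.Dp Γ.SR2 + Γ.Dp Γ.SR3) := by
    rw [Dop_eq,
      Γ.Dp_split (P₁ := fun s g => Γ.SR1 s g ∨ Γ.IsB s g) (P₂ := fun s g => Γ.SR2 s g ∨ Γ.SR3 s g),
      Γ.Dp_split (P := fun s g => Γ.SR1 s g ∨ Γ.IsB s g) (fun _ _ => Iff.rfl)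
        (fun _ _ h1 => h1.not_isB),
      Γ.Dp_split (P := fun s g => Γ.SR2 s g ∨ Γ.SR3 s g) (fun _ _ => Iff.rfl)
        (fun _ _ h1 h2 => h1.1 h2.1)]
    · intro s g
      unfold SR1 SR2 SR3
      tauto
    · intro s g
      unfold SR1 SR2 SR3
      tauto
  have nR1 : ‖Γ.Dp Γ.SR1‖ ≤ 2 * n := by
    refine (Γ.schur_Dp Γ.SR1 1 (4 * n ^ 2) (fun g z => ?_) (fun k => ?_)).2.trans (le_of_eq ?_)
    · refine Finset.card_le_one.2 fun s hs s' hs' => ?_
      simp only [Finset.mem_filter, Finset.mem_univ, true_and] at hs hs'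
      exact ssp_two h hs.1.1 hs'.1.1 hs.1.not_isB
    · exact (Finset.card_le_univ _).trans (le_of_eq ssp_card_Let)
    · rw [Real.sqrt_eq_iff_mul_self_eq (by positivity) (by positivity)]; push_cast; ring
  have nB : ‖Γ.Dp Γ.IsB‖ ≤ n := by
    refine (Γ.schur_Dp Γ.IsB n n (fun g z => ?_) (fun k => ?_)).2.trans (le_of_eq ?_)
    · refine le_trans (Finset.card_le_card fun s hs => ?_) (card_IsB_row h g)
      simp only [Finset.mem_filter, Finset.mem_univ, true_and] at hs ⊢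
      exact hs.1
    · exact card_IsB_col h k
    · exact Real.sqrt_mul_self (by positivity)
  have nR2 : ‖Γ.Dp Γ.SR2‖ ≤ 2 * Real.sqrt n := by
    refine (Γ.schur_Dp Γ.SR2 (4 * n) 1 (fun g z => ?_) (fun k => ?_)).2.trans (le_of_eq ?_)
    · refine le_trans (Finset.card_le_card fun s hs => ?_) (ssp_card_block z)
      simp only [Finset.mem_filter, Finset.mem_univ, true_and] at hs ⊢
      exact hs.2
    · exact ssp_R2_col h k
    · rw [Real.sqrt_eq_iff_mul_self_eq (by positivity) (by positivity)]; push_cast; linarith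
  have nR3 : ‖Γ.Dp Γ.SR3‖ ≤ Real.sqrt n := by
    refine (Γ.schur_Dp Γ.SR3 1 n (fun g z => ?_) (fun k => ?_)).2.trans (le_of_eq ?_)
    · refine Finset.card_le_one.2 fun s hs s' hs' => ?_
      simp only [Finset.mem_filter, Finset.mem_univ, true_and] at hs hs'
      exact ssp_two h hs.1.1 hs'.1.1 hs.1.2.2
    · exact ssp_R3_col h k
    · simp
  have z1 : adj (Γ.Dp Γ.SR1) ∘L Γ.Dp Γ.IsB = 0 := by
    refine mat_ext fun k k' => ?_
    rw [mat_adj_Dp_comp, mat_zero]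
    exact Finset.sum_eq_zero fun s _ => Finset.sum_eq_zero fun s' _ =>
      if_neg fun hh => hh.1.not_isB hh.2.1
  have z2 : adj (Γ.Dp Γ.IsB) ∘L Γ.Dp Γ.SR1 = 0 := by
    refine mat_ext fun k k' => ?_
    rw [mat_adj_Dp_comp, mat_zero]
    exact Finset.sum_eq_zero fun s _ => Finset.sum_eq_zero fun s' _ =>
      if_neg fun hh => hh.2.1.not_isB hh.1
  set E := adj (Γ.Dp Γ.SR1) ∘L Γ.Dp Γ.SR1 -
    ((4 * (n : ℝ) ^ 2 : ℝ) : ℂ) • (1 : L2 Γ.Grp →L[ℂ] L2 Γ.Grp) with hE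
  have hmat : ∀ k k', mat E k k' = if k = k' then
      -(((Finset.univ.filter fun s : Let F => ¬ Γ.SR1 s (Γ.gen s * k)).card : ℝ) : ℂ) else 0 := by
    intro k k'
    rw [hE, mat_sub, mat_smul, mat_one, mat_adj_Dp_comp]
    have e1 : ∀ s : Let F, (∑ s' : Let F,
        if Γ.SR1 s (Γ.gen s * k) ∧ Γ.SR1 s' (Γ.gen s * k) ∧ s.2.1 = s'.2.1 ∧
          Γ.gen s * k = Γ.gen s' * k'
        then (starRingEnd ℂ) (ph s.2.2) * ph s'.2.2 else 0) =
        if k = k' then (if Γ.SR1 s (Γ.gen s * k) then 1 else 0) else 0 := by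
      intro s
      rw [Finset.sum_eq_single s]
      · have : (starRingEnd ℂ) (ph s.2.2) * ph s.2.2 = 1 := by
          rw [Complex.conj_mul', norm_ph]; simp
        rw [this]
        by_cases h1 : k = k' <;> by_cases h2 : Γ.SR1 s (Γ.gen s * k) <;> simp [h1, h2]
      · intro s' _ hne
        exact if_neg fun hh => hne (ssp_two h hh.2.1.1 hh.1.1 hh.2.1.not_isB)
      · simp
    have e2 : (∑ s : Let F, ∑ s' : Let F,
        if Γ.SR1 s (Γ.gen s * k) ∧ Γ.SR1 s' (Γ.gen s * k) ∧ s.2.1 = s'.2.1 ∧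
          Γ.gen s * k = Γ.gen s' * k'
        then (starRingEnd ℂ) (ph s.2.2) * ph s'.2.2 else 0) =
        ∑ s : Let F, if k = k' then (if Γ.SR1 s (Γ.gen s * k) then 1 else 0) else 0 :=
      Finset.sum_congr rfl fun s _ => e1 s
    have e3 := Finset.card_filter_add_card_filter_not (s := (Finset.univ : Finset (Let F)))
      (fun s : Let F => Γ.SR1 s (Γ.gen s * k))
    rw [Finset.card_univ, ssp_card_Let, ← hn] at e3
    have e4 := congrArg (Nat.cast : ℕ → ℂ) e3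
    push_cast at e4
    refine Eq.trans (congrArg (· - _) (Eq.trans (by congr!) e2)) ?_
    split_ifs with h1
    · rw [Finset.sum_boole]
      push_cast
      linear_combination e4
    · simp
  have hcnt : ∀ k, (((Finset.univ.filter fun s : Let F => ¬ Γ.SR1 s (Γ.gen s * k)).card : ℕ) : ℝ) ≤
      2 * n + 1 := by
    intro k
    have h1 : (Finset.univ.filter fun s : Let F => ¬ Γ.SR1 s (Γ.gen s * k)) ⊆
        ((Finset.univ.filter fun s : Let F => Γ.IsB s (Γ.gen s * k)) ∪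
          (Finset.univ.filter fun s : Let F => Γ.SR2 s (Γ.gen s * k))) ∪
          (Finset.univ.filter fun s : Let F => Γ.SR3 s (Γ.gen s * k)) := by
      intro s hs
      simp only [Finset.mem_filter, Finset.mem_univ, true_and, Finset.mem_union] at hs ⊢
      unfold SR1 at hs
      unfold SR2 SR3
      tauto
    have h2 := (Finset.card_le_card h1).trans ((Finset.card_union_le _ _).trans
      (Nat.add_le_add ((Finset.card_union_le _ _).trans
        (Nat.add_le_add (card_IsB_col h k) (ssp_R2_col h k))) (ssp_R3_col h k)))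
    have h3 : (Finset.univ.filter fun s : Let F => ¬ Γ.SR1 s (Γ.gen s * k)).card ≤ 2 * n + 1 := by
      omega
    exact_mod_cast h3
  have hent : ∀ k k', ‖mat E k k'‖ ≤ if k = k' then 2 * (n : ℝ) + 1 else 0 := by
    intro k k'
    rw [hmat]
    split_ifs
    · rw [norm_neg, Complex.norm_real, Real.norm_of_nonneg (Nat.cast_nonneg _)]
      exact hcnt k
    · simp
  have nE : ‖E‖ ≤ 2 * n + 1 := by
    have h1 := (schur₁ (mat E) (2 * n + 1) (2 * n + 1) (by positivity) (by positivity)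
      (fun k S => ?_) (fun k S => ?_)).2
    · rwa [kop_mat, Real.sqrt_mul_self (by positivity)] at h1
    · refine (Finset.sum_le_sum fun k' _ => hent k k').trans ?_
      rw [Finset.sum_ite_eq]
      split_ifs
      · exact le_rfl
      · positivity
    · refine (Finset.sum_le_sum fun k' _ => hent k' k).trans ?_
      rw [Finset.sum_ite_eq']
      split_ifs
      · exact le_rfl
      · positivity
  have key := ssp_abstract (Γ.Dp Γ.SR1) (Γ.Dp Γ.IsB) (Γ.Dp Γ.SR2 + Γ.Dp Γ.SR3)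
    (((4 * (n : ℝ) ^ 2 : ℝ) : ℂ) • (1 : L2 Γ.Grp →L[ℂ] L2 Γ.Grp)) (2 * n + n)
    (2 * Real.sqrt n + Real.sqrt n) (2 * n + 1) (norm_add_le_of_le nR1 nB)
    (norm_add_le_of_le nR2 nR3) z1 z2 nE
  unfold Top
  rw [hD]
  refine key.trans ?_
  have h5 : (n : ℝ) ≤ n * Real.sqrt n := le_mul_of_one_le_right (by linarith) hs1
  nlinarith

end BG
end Crest.Agent.R129
end

-- ▼ part PVb/R129/SLoc
section

/-!
# Local isomorphisms of operators (task R129/SLoc).  Statements frozen.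

For a block `x` let `X = {p // c p = x}`, `V x = emb (φ ∘ Subtype.val : X → J) ∘L adj (emb Subtype.val)`.
If `ξ` is supported in the block then `‖V x ξ‖ = ‖ξ‖`, `T₂ ξ` is supported in the block and
`T₁ (V x ξ) = V x (T₂ ξ)` (check `T₁ ∘L emb (φ ∘ val) = emb (φ ∘ val) ∘L adj (emb val) ∘L T₂ ∘L emb val` on
matrix entries, using `eq` and `col`).  Then `norm_le_of_blocks`, `le_norm_of_blocks`.
-/

set_option autoImplicit false
open scoped BigOperators

namespace Crest.Agent.R129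
variable {I J C : Type} {c : I → C} {φ : I → J} {T₂ S₂ : L2 I →L[ℂ] L2 I} {T₁ S₁ : L2 J →L[ℂ] L2 J}

theorem LocIso.adj' (h : LocIso c φ T₂ T₁) : LocIso c φ (adj T₂) (adj T₁) := by
  refine ⟨fun p q hpq => ?_, fun p q hpq => ?_, fun p q' hpq => ?_, fun q p' hpq => ?_⟩
  · rw [mat_adj, map_ne_zero] at hpq
    exact (h.blk q p hpq).symm
  · rw [mat_adj, mat_adj, h.eq q p hpq.symm]
  · rw [mat_adj, map_ne_zero] at hpq
    exact h.col p q' hpq
  · rw [mat_adj, map_ne_zero] at hpq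
    exact h.row q p' hpq

theorem sloc_sub_ne {a b : ℂ} (h : a - b ≠ 0) : a ≠ 0 ∨ b ≠ 0 := by
  by_contra hc
  rw [not_or, not_not, not_not] at hc
  exact h (by rw [hc.1, hc.2, sub_zero])

theorem LocIso.sub (h : LocIso c φ T₂ T₁) (h' : LocIso c φ S₂ S₁) :
    LocIso c φ (T₂ - S₂) (T₁ - S₁) := by
  refine ⟨fun p q hpq => ?_, fun p q hpq => ?_, fun p q' hpq => ?_, fun q p' hpq => ?_⟩
  · rw [mat_sub] at hpq
    exact (sloc_sub_ne hpq).elim (h.blk p q) (h'.blk p q)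
  · rw [mat_sub, mat_sub, h.eq p q hpq, h'.eq p q hpq]
  · rw [mat_sub] at hpq
    exact (sloc_sub_ne hpq).elim (h.row p q') (h'.row p q')
  · rw [mat_sub] at hpq
    exact (sloc_sub_ne hpq).elim (h.col q p') (h'.col q p')

theorem LocIso.smul (h : LocIso c φ T₂ T₁) (a : ℂ) : LocIso c φ (a • T₂) (a • T₁) := by
  refine ⟨fun p q hpq => ?_, fun p q hpq => ?_, fun p q' hpq => ?_, fun q p' hpq => ?_⟩
  · rw [mat_smul] at hpq
    exact h.blk p q (right_ne_zero_of_mul hpq)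
  · rw [mat_smul, mat_smul, h.eq p q hpq]
  · rw [mat_smul] at hpq
    exact h.row p q' (right_ne_zero_of_mul hpq)
  · rw [mat_smul] at hpq
    exact h.col q p' (right_ne_zero_of_mul hpq)

theorem sloc_comp_ne {K : Type} {T S : L2 K →L[ℂ] L2 K} {p q : K} (h : mat (T ∘L S) p q ≠ 0) :
    ∃ j, mat T p j ≠ 0 ∧ mat S j q ≠ 0 := by
  by_contra hc
  apply h
  refine (hasSum_mat_comp T S p q).unique ?_
  have : (fun j => mat T p j * mat S j q) = fun _ => 0 := by
    funext j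
    by_contra hj
    exact hc ⟨j, left_ne_zero_of_mul hj, right_ne_zero_of_mul hj⟩
  rw [this]
  exact hasSum_zero

theorem sloc_inj (hφ : ∀ p q, c p = c q → φ p = φ q → p = q) (x : C) :
    Function.Injective (fun p : {p // c p = x} => φ p.1) := fun p q h =>
  Subtype.ext (hφ _ _ (p.2.trans q.2.symm) h)

/-- `hasSum_mat_comp` on both sides; reindex along the injection `φ` of the block
(`Function.Injective.hasSum_iff`). -/
theorem LocIso.comp (hφ : ∀ p q, c p = c q → φ p = φ q → p = q) (h : LocIso c φ T₂ T₁)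
    (h' : LocIso c φ S₂ S₁) : LocIso c φ (T₂ ∘L S₂) (T₁ ∘L S₁) := by
  refine ⟨fun p q hpq => ?_, fun p q hpq => ?_, fun p q' hpq => ?_, fun q p' hpq => ?_⟩
  · obtain ⟨j, h1, h2⟩ := sloc_comp_ne hpq
    exact (h.blk p j h1).trans (h'.blk j q h2)
  · have h1 := (Subtype.val_injective (p := fun j => c j = c p)).hasSum_iff
      (f := fun j => mat T₂ p j * mat S₂ j q) (a := mat (T₂ ∘L S₂) p q) (fun j hj => by
        by_contra h0
        exact hj ⟨⟨j, (h.blk p j (left_ne_zero_of_mul h0)).symm⟩, rfl⟩)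
    have h2 := (sloc_inj hφ (c p)).hasSum_iff
      (f := fun j => mat T₁ (φ p) j * mat S₁ j (φ q)) (a := mat (T₁ ∘L S₁) (φ p) (φ q))
      (fun j hj => by
        by_contra h0
        obtain ⟨i, hi, hi'⟩ := h.row p j (left_ne_zero_of_mul h0)
        exact hj ⟨⟨i, hi⟩, hi'⟩)
    refine (h1.2 (hasSum_mat_comp T₂ S₂ p q)).unique ?_
    convert h2.2 (hasSum_mat_comp T₁ S₁ (φ p) (φ q)) using 1
    funext j
    simp only [Function.comp_apply]
    rw [h.eq p j j.2.symm, h'.eq j q (j.2.trans hpq)]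
  · obtain ⟨j, h1, h2⟩ := sloc_comp_ne hpq
    obtain ⟨i, hi, rfl⟩ := h.row p j h1
    obtain ⟨q, hq, hq'⟩ := h'.row i q' h2
    exact ⟨q, hq.trans hi, hq'⟩
  · obtain ⟨j, h1, h2⟩ := sloc_comp_ne hpq
    obtain ⟨i, hi, rfl⟩ := h'.col q j h2
    obtain ⟨p, hp, hp'⟩ := h.col i p' h1
    exact ⟨p, hp.trans hi, hp'⟩

theorem sloc_eq_emb {X : Type} {f : X → J} (hf : Function.Injective f) {η : L2 J} {ζ : L2 X}
    (h1 : ∀ i, (η : J → ℂ) (f i) = (ζ : X → ℂ) i)
    (h2 : ∀ j, (η : J → ℂ) j ≠ 0 → ∃ i, f i = j) : η = emb f ζ := by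
  refine lp.ext (funext fun j => ?_)
  by_cases hj : ∃ i, f i = j
  · obtain ⟨i, rfl⟩ := hj
    rw [h1, ← adj_emb_apply hf, ← ContinuousLinearMap.comp_apply, adj_emb_comp hf]
    rfl
  · have h3 : (η : J → ℂ) j = 0 := by
      by_contra h0
      exact hj (h2 j h0)
    rw [h3]
    refine ((hasSum_apply (emb f) ζ j).unique ?_).symm
    have : (fun i => mat (emb f) j i * (ζ : X → ℂ) i) = fun _ => 0 := by
      funext i
      rw [mat_emb hf, if_neg fun h0 => hj ⟨i, h0.symm⟩, zero_mul]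
    rw [this]
    exact hasSum_zero

theorem sloc_emb_dl {X : Type} {f : X → J} (hf : Function.Injective f) (i : X) :
    emb f (dl i) = dl (f i) := by
  classical
  refine lp.ext (funext fun j => ?_)
  rw [dl_apply]
  exact mat_emb hf j i

theorem sloc_inter {X : Type} {f : X → J} (hf : Function.Injective f) {T : L2 J →L[ℂ] L2 J}
    {A : L2 X →L[ℂ] L2 X} (h1 : ∀ i i', mat T (f i') (f i) = mat A i' i)
    (h2 : ∀ i j, mat T j (f i) ≠ 0 → ∃ i', f i' = j) (ζ : L2 X) :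
    T (emb f ζ) = emb f (A ζ) := by
  have : T ∘L emb f = emb f ∘L A := mat_ext fun j i => by
    unfold mat
    rw [ContinuousLinearMap.comp_apply, ContinuousLinearMap.comp_apply, sloc_emb_dl hf,
      sloc_eq_emb hf (η := T (dl (f i))) (ζ := A (dl i)) (h1 i) (h2 i)]
  exact DFunLike.congr_fun this ζ

theorem sloc_key (hφ : ∀ p q, c p = c q → φ p = φ q → p = q) (h : LocIso c φ T₂ T₁) (x : C)
    (ξ : L2 I) (hξ : ∀ i, (ξ : I → ℂ) i ≠ 0 → c i = x) :
    ∃ η : L2 J, ‖η‖ = ‖ξ‖ ∧ ‖T₁ η‖ = ‖T₂ ξ‖ := by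
  have hv : Function.Injective (Subtype.val : {p // c p = x} → I) := Subtype.val_injective
  have hw := sloc_inj hφ x
  let A := adj (emb (Subtype.val : {p // c p = x} → I)) ∘L T₂ ∘L
    emb (Subtype.val : {p // c p = x} → I)
  have hA : ∀ i' i : {p // c p = x}, mat T₂ i'.1 i.1 = mat A i' i := fun i' i => by
    unfold mat
    rw [ContinuousLinearMap.comp_apply, ContinuousLinearMap.comp_apply, sloc_emb_dl hv,
      adj_emb_apply hv]
  have h1 : ξ = emb Subtype.val (adj (emb (Subtype.val : {p // c p = x} → I)) ξ) :=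
    sloc_eq_emb hv (fun i => (adj_emb_apply hv ξ i).symm) fun j hj => ⟨⟨j, hξ j hj⟩, rfl⟩
  generalize adj (emb (Subtype.val : {p // c p = x} → I)) ξ = ζ at h1
  subst h1
  refine ⟨emb (fun p : {p // c p = x} => φ p.1) ζ, ?_, ?_⟩
  · rw [norm_emb_apply hw, norm_emb_apply hv]
  · rw [sloc_inter hw (A := A) (fun i i' => by rw [← hA, h.eq _ _ (i'.2.trans i.2.symm)])
        (fun i j hj => by
          obtain ⟨p, hp, hp'⟩ := h.col i.1 j hj
          exact ⟨⟨p, hp.trans i.2⟩, hp'⟩),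
      sloc_inter hv (A := A) (fun i i' => hA i' i)
        (fun i j hj => ⟨⟨j, (h.blk j i.1 hj).trans i.2⟩, rfl⟩),
      norm_emb_apply hw, norm_emb_apply hv]

theorem sloc_one (hφ : ∀ p q, c p = c q → φ p = φ q → p = q) :
    LocIso c φ (1 : L2 I →L[ℂ] L2 I) (1 : L2 J →L[ℂ] L2 J) := by
  classical
  refine ⟨fun p q hpq => ?_, fun p q hpq => ?_, fun p q' hpq => ?_, fun q p' hpq => ?_⟩
  · rw [mat_one] at hpq
    by_cases h : p = q
    · rw [h]
    · exact absurd (if_neg h) hpq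
  · rw [mat_one, mat_one]
    by_cases h : p = q
    · rw [if_pos h, if_pos (by rw [h])]
    · rw [if_neg h, if_neg fun h0 => h (hφ p q hpq h0)]
  · rw [mat_one] at hpq
    by_cases h : φ p = q'
    · exact ⟨p, rfl, h⟩
    · exact absurd (if_neg h) hpq
  · rw [mat_one] at hpq
    by_cases h : p' = φ q
    · exact ⟨q, rfl, h.symm⟩
    · exact absurd (if_neg h) hpq

theorem LocIso.norm_le (hφ : ∀ p q, c p = c q → φ p = φ q → p = q) (h : LocIso c φ T₂ T₁) :
    ‖T₂‖ ≤ ‖T₁‖ := by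
  refine norm_le_of_blocks T₂ c c h.blk _ (norm_nonneg _) fun x ξ hξ => ?_
  obtain ⟨η, h1, h2⟩ := sloc_key hφ h x ξ hξ
  rw [← h1, ← h2]
  exact T₁.le_opNorm η

theorem LocIso.gap (hφ : ∀ p q, c p = c q → φ p = φ q → p = q) (h : LocIso c φ T₂ T₁) {γ r : ℝ}
    (hg : Gap T₁ γ r) : Gap T₂ γ r := by
  have h' := h.sub ((sloc_one hφ).smul (γ : ℂ))
  intro ξ
  refine le_norm_of_blocks _ c c h'.blk r (fun x ξ hξ => ?_) ξ
  obtain ⟨η, h1, h2⟩ := sloc_key hφ h' x ξ hξ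
  rw [← h1, ← h2]
  exact hg η

end Crest.Agent.R129
end

-- ▼ part PVb/R129S/Gap2

/-!
# R129S: Markov bound for the upper spectral projection
-/

set_option autoImplicit false
set_option linter.unusedSectionVars false

noncomputable section

namespace Crest.Agent.R129S

open scoped InnerProductSpace ComplexConjugate
open ContinuousLinearMap Crest.OperatorAlgebra

variable {E F : Type} [NormedAddCommGroup E] [InnerProductSpace ℂ E]
  [NormedAddCommGroup F] [InnerProductSpace ℂ F] [CompleteSpace E] [CompleteSpace F]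
  {S : E →L[ℂ] E} {m r : ℝ}

theorem re_inner_algebraMap (c : ℝ) (ξ : E) :
    (⟪ξ, (algebraMap ℝ (E →L[ℂ] E) c) ξ⟫_ℂ).re = c * ‖ξ‖ ^ 2 := by
  rw [Algebra.algebraMap_eq_smul_one, smul_apply, one_apply_eq_self, ← Complex.coe_smul,
    inner_smul_right, Complex.re_ofReal_mul, re_inner_self]

theorem Gap.up_ne_zero' (h : Gap S m r) (hS : IsSelfAdjoint S) (hr : 0 < r) {ξ : E}
    (hξ : (m - r) * ‖ξ‖ ^ 2 < (⟪ξ, S ξ⟫_ℂ).re) : up S m ≠ 0 := by
  intro h0
  have hc := h.continuousOn hS hr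
  have h1 : ∀ x ∈ _root_.spectrum ℝ S, x ≤ m - r := by
    intro x hx
    have h4 := h.spectrum hS hr.le hx
    by_cases hlt : m ≤ x
    · exfalso
      have h2 : stp m x ∈ _root_.spectrum ℝ (up S m) := by
        unfold up
        rw [cfc_map_spectrum _ S]
        exact ⟨x, hx, rfl⟩
      rw [h0] at h2
      have h3 : stp m x = 1 := if_pos hlt
      rw [h3, spectrum.mem_iff] at h2
      exact h2 (by simp)
    · rw [abs_of_nonpos (by linarith)] at h4
      linarith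
  have h2 : S ≤ algebraMap ℝ _ (m - r) := le_algebraMap_of_spectrum_le h1 hS
  have h3 := re_nonneg (sub_nonneg.2 h2) ξ
  rw [sub_apply, inner_sub_right, Complex.sub_re, re_inner_algebraMap] at h3
  linarith

theorem Gap.markov (h : Gap S m r) (hS : IsSelfAdjoint S) (hr : 0 < r) {a : ℝ}
    (ha : ∀ ξ, a * ‖ξ‖ ^ 2 ≤ (⟪ξ, S ξ⟫_ℂ).re) (ξ : E) :
    (m - a) * ‖up S m ξ‖ ^ 2 ≤ (⟪ξ, S ξ⟫_ℂ).re - a * ‖ξ‖ ^ 2 := by
  have hcont := h.continuousOn hS hr
  have hsa : IsSelfAdjoint (S - algebraMap ℝ _ a) :=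
    hS.sub (IsSelfAdjoint.algebraMap _ (IsSelfAdjoint.all a))
  have e1 : cfc (fun x : ℝ => x - a) S = S - algebraMap ℝ _ a := by
    rw [cfc_sub _ _ S, cfc_const _ S, cfc_id' ℝ S]
  have hp : 0 ≤ cfc (fun x : ℝ => x - a) S := by
    rw [e1]
    refine nonneg_of_re hsa fun η => ?_
    rw [sub_apply, inner_sub_right, Complex.sub_re, re_inner_algebraMap]
    linarith [ha η]
  have hp' := (cfc_nonneg_iff _ S).1 hp
  have e : cfc (fun x : ℝ => (x - a) - (m - a) * stp m x) S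
      = (S - algebraMap ℝ _ a) - (m - a) • up S m := by
    rw [cfc_sub _ _ S, e1, cfc_const_mul _ _ S]
    rfl
  have h0 : 0 ≤ cfc (fun x : ℝ => (x - a) - (m - a) * stp m x) S := by
    refine cfc_nonneg fun x hx => ?_
    have := hp' x hx
    unfold stp
    split_ifs with h1
    · linarith
    · linarith
  have h4 := re_nonneg h0 ξ
  have h5 : (⟪ξ, up S m ξ⟫_ℂ).re = ‖up S m ξ‖ ^ 2 := by
    rw [← re_inner_adjoint, ← star_eq_adjoint, (up_selfAdjoint S m).star_eq]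
    change _ = (⟪ξ, (up S m * up S m) ξ⟫_ℂ).re
    rw [h.up_mul hS hr]
  rw [e, sub_apply, inner_sub_right, Complex.sub_re, sub_apply, inner_sub_right, Complex.sub_re,
    re_inner_algebraMap, smul_apply, ← Complex.coe_smul, inner_smul_right, Complex.re_ofReal_mul,
    h5] at h4
  linarith

theorem abs_re_inner_le (A : E →L[ℂ] E) (ξ : E) : |(⟪ξ, A ξ⟫_ℂ).re| ≤ ‖A‖ * ‖ξ‖ ^ 2 := by
  calc |(⟪ξ, A ξ⟫_ℂ).re| ≤ ‖⟪ξ, A ξ⟫_ℂ‖ := Complex.abs_re_le_norm _
    _ ≤ ‖ξ‖ * ‖A ξ‖ := norm_inner_le_norm _ _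
    _ ≤ ‖ξ‖ * (‖A‖ * ‖ξ‖) := by gcongr; exact A.le_opNorm _
    _ = ‖A‖ * ‖ξ‖ ^ 2 := by ring

theorem norm_adjoint_comp_sub (A B : E →L[ℂ] F) {a δ : ℝ} (hA : ‖A‖ ≤ a) (hB : ‖B‖ ≤ a)
    (h : ‖A - B‖ ≤ δ) : ‖adjoint A ∘L A - adjoint B ∘L B‖ ≤ 2 * a * δ := by
  have e : adjoint A ∘L A - adjoint B ∘L B = adjoint (A - B) ∘L A + adjoint B ∘L (A - B) := by
    rw [map_sub, sub_comp, comp_sub]; abel
  have ha : 0 ≤ a := (norm_nonneg _).trans hA
  have hδ : 0 ≤ δ := (norm_nonneg _).trans h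
  rw [e]
  calc _ ≤ ‖adjoint (A - B) ∘L A‖ + ‖adjoint B ∘L (A - B)‖ := norm_add_le _ _
    _ ≤ ‖adjoint (A - B)‖ * ‖A‖ + ‖adjoint B‖ * ‖A - B‖ :=
        add_le_add (opNorm_comp_le _ _) (opNorm_comp_le _ _)
    _ ≤ δ * a + a * δ := by
        rw [LinearIsometryEquiv.norm_map, LinearIsometryEquiv.norm_map]
        gcongr
    _ = 2 * a * δ := by ring

theorem exists_lt_normSq (A : E →L[ℂ] F) {c : ℝ} (hc : 0 ≤ c) (h : c < ‖A‖ ^ 2) :
    ∃ ξ, c * ‖ξ‖ ^ 2 < ‖A ξ‖ ^ 2 := by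
  by_contra hn
  push Not at hn
  have : ‖A‖ ≤ √c := by
    refine opNorm_le_bound _ (Real.sqrt_nonneg _) fun ξ => ?_
    refine (pow_le_pow_iff_left₀ (norm_nonneg _) (by positivity) two_ne_zero).1 ?_
    rw [mul_pow, Real.sq_sqrt hc]
    exact hn ξ
  have h2 := pow_le_pow_left₀ (norm_nonneg _) this 2
  rw [Real.sq_sqrt hc] at h2
  linarith

variable {G : Type} [Group G]

theorem exists_proj_markov {T : L2 G →L[ℂ] L2 G} (hT : T ∈ redAlg G) (hsa : IsSelfAdjoint T)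
    {m r a : ℝ} (hr : 0 < r) (hg : Gap T m r) {ξ : L2 G}
    (hξ : (m - r) * ‖ξ‖ ^ 2 < (⟪ξ, T ξ⟫_ℂ).re) (ha : ∀ η, a * ‖η‖ ^ 2 ≤ (⟪η, T η⟫_ℂ).re)
    (h1 : 2 * ((ent T 1 1).re - a) < m - a) :
    ∃ e ∈ reducedGroupCStar G, e * e = e ∧ star e = e ∧ 0 < (canonicalTrace G e).re ∧
      (canonicalTrace G e).re < 1 / 2 := by
  have hm := up_mem isClosed_redAlg hT m
  have he1 := hg.up_mul hsa hr
  have he2 := (up_selfAdjoint T m).star_eq
  refine ⟨up T m, hm, he1, he2, ?_, ?_⟩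
  · rw [trace_proj he1 he2]
    have : up T m (dl 1) ≠ 0 := fun h => hg.up_ne_zero' hsa hr hξ (eq_zero_of_dl_one hm h)
    exact pow_pos (norm_pos_iff.2 this) 2
  · rw [trace_proj he1 he2]
    have h2 := hg.markov hsa hr ha (dl 1)
    have h3 := ha (dl 1)
    rw [norm_dl, ← ent_eq_inner] at h2 h3
    by_contra h5
    have h6 := mul_le_mul_of_nonneg_left (not_lt.1 h5) (show 0 ≤ m - a by linarith)
    linarith

theorem ent_mul_right {T : L2 G →L[ℂ] L2 G} (hT : T ∈ redAlg G) (g a k : G) :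
    ent T (g * k) (a * k) = ent T g a := by
  have h1 : dl (a * k) = rho k⁻¹ (dl a) := by rw [rho_dl, inv_inv]
  unfold ent
  rw [h1, ← mul_apply_eq_comp, (commute_rho hT k⁻¹).eq, mul_apply_eq_comp, rho_apply,
    mul_inv_cancel_right]

end Crest.Agent.R129S
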